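import Vale.Agent.P181.TR.Defs
import Vale.Agent.P181.TL.H410.T9E

set_option autoImplicit false

/-!
# P181, TR: block (R8): the final form, from `CoreR`, the polylog theorem and few boxes
-/

namespace Vale.Agent.P181.TR.H235

open Vale.Agent.P181.SZ
open Vale.Agent.P181.TL (dn2)
open Vale.Agent.P181.TL.H410 (PLH FewH ev_log one_le_L)
open Vale.Agent.P181.H280 (plethMult)

/-- The choice of `Y`. -/
theorem pickY {a D : ℕ} (ha : 0 < a) (hD : 3 * a ≤ D) :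
    ∃ Y : ℕ, 1 ≤ Y ∧ 27 * (2 * a + D) ^ 3 ≤ a ^ 3 * Y ^ 4 ∧ a ^ 3 * Y ^ 4 ≤ 3456 * D ^ 3 := by
  obtain ⟨s, hs⟩ : ∃ s, s = D / a := ⟨_, rfl⟩
  have hsa : s * a ≤ D := by rw [hs]; exact Nat.div_mul_le_self D a
  have hta : D < (s + 1) * a := by
    rw [hs, add_mul, one_mul, mul_comm]
    have := Nat.lt_mul_div_succ D ha
    rw [mul_add, mul_one] at this
    exact this
  have hs3 : 3 ≤ s := by
    rw [hs]
    exact (Nat.le_div_iff_mul_le ha).2 hD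
  obtain ⟨x, hx⟩ : ∃ x, x = 27 * (s + 3) ^ 3 := ⟨_, rfl⟩
  obtain ⟨z, hz⟩ : ∃ z, z = Nat.sqrt x := ⟨_, rfl⟩
  have hz1 : z * z ≤ x := by rw [hz]; exact Nat.sqrt_le _
  have hz2 : x < (z + 1) * (z + 1) := by rw [hz]; exact Nat.lt_succ_sqrt _
  obtain ⟨y, hy⟩ : ∃ y, y = Nat.sqrt z := ⟨_, rfl⟩
  have hy1 : y * y ≤ z := by rw [hy]; exact Nat.sqrt_le _
  have hy2 : z < (y + 1) * (y + 1) := by rw [hy]; exact Nat.lt_succ_sqrt _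
  have hx1 : 1 ≤ x := by
    rw [hx]
    have : 0 < (s + 3) ^ 3 := by positivity
    omega
  have hz3 : 1 ≤ z := by
    by_contra hc
    have : z = 0 := by omega
    subst this
    have h27 : 27 ≤ x := by
      rw [hx]
      have : 0 < (s + 3) ^ 3 := by positivity
      omega
    omega
  have hy3 : 1 ≤ y := by
    by_contra hc
    have : y = 0 := by omega
    subst this
    omega
  have hlow : x ≤ (y + 1) ^ 4 := by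
    calc x ≤ (z + 1) * (z + 1) := hz2.le
      _ ≤ ((y + 1) * (y + 1)) * ((y + 1) * (y + 1)) := Nat.mul_le_mul hy2 hy2
      _ = (y + 1) ^ 4 := by ring
  have hup : (y + 1) ^ 4 ≤ 3456 * s ^ 3 := by
    calc (y + 1) ^ 4 ≤ (2 * y) ^ 4 := Nat.pow_le_pow_left (by omega) 4
      _ = 16 * ((y * y) * (y * y)) := by ring
      _ ≤ 16 * (z * z) := by gcongr
      _ ≤ 16 * x := by gcongr
      _ = 432 * (s + 3) ^ 3 := by rw [hx]; ring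
      _ ≤ 432 * (2 * s) ^ 3 := by gcongr; omega
      _ = 3456 * s ^ 3 := by ring
  refine ⟨y + 1, by omega, ?_, ?_⟩
  · have h1 : 2 * a + D ≤ a * (s + 3) := by nlinarith
    calc 27 * (2 * a + D) ^ 3 ≤ 27 * (a * (s + 3)) ^ 3 := by gcongr
      _ = a ^ 3 * x := by rw [hx]; ring
      _ ≤ a ^ 3 * (y + 1) ^ 4 := by gcongr
  · calc a ^ 3 * (y + 1) ^ 4 ≤ a ^ 3 * (3456 * s ^ 3) := by gcongr
      _ = 3456 * (s * a) ^ 3 := by ring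
      _ ≤ 3456 * D ^ 3 := by gcongr

/-- The tail lies below row two. -/
theorem sum_ta_le {k r : ℕ} (hr : 2 ≤ r) (lam : Fin (k + 1 + r + 1) → ℕ) :
    ∑ i, ta (tl lam) i ≤ D2 lam := by
  have hinj : Function.Injective
      (fun i : Fin (k + 1) => (Fin.succ (⟨r + i, by omega⟩ : Fin (k + 1 + r)))) := by
    intro i j hij
    have := congrArg Fin.val hij
    simp only [Fin.val_succ] at this
    exact Fin.ext (by omega)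
  have h1 : ∑ i, ta (tl lam) i = ∑ j ∈ Finset.univ.map ⟨_, hinj⟩,
      if 2 ≤ (j : ℕ) then lam j else 0 := by
    rw [Finset.sum_map]
    refine Finset.sum_congr rfl fun i _ => ?_
    simp only [Function.Embedding.coeFn_mk, Fin.val_succ]
    rw [if_pos (by omega)]
    rfl
  rw [h1]
  exact Finset.sum_le_sum_of_subset (Finset.subset_univ _)

/-- The labels. -/
theorem yR {a D q m r Y : ℕ} {Q R : ℝ} (ha : 0 < a) (hR0 : 0 < R) (hqQ : (q : ℝ) ≤ Q)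
    (hm2 : (m : ℝ) ≤ 8 * Q + Q ^ 2 * R + 1) (hY3 : a ^ 3 * Y ^ 4 ≤ 3456 * D ^ 3)
    (h4 : 3456 * ((8 * Q + Q ^ 2 * R + 1 + r) * Q ^ 2 * R) ^ 4 * (D : ℝ) ^ 3 ≤ (a : ℝ) ^ 7) :
    R * ((q ^ 2 * Y * (m + r) : ℕ) : ℝ) ≤ a := by
  have ha0 : (0 : ℝ) < a := by exact_mod_cast ha
  have hq0 : (0 : ℝ) ≤ q := Nat.cast_nonneg q
  have hQ0 : 0 ≤ Q := hq0.trans hqQ
  have hr0 : (0 : ℝ) ≤ r := Nat.cast_nonneg r
  have hq2 : (q : ℝ) ^ 2 ≤ Q ^ 2 := pow_le_pow_left₀ hq0 hqQ 2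
  obtain ⟨S, hS⟩ : ∃ S, S = 8 * Q + Q ^ 2 * R + 1 + r := ⟨_, rfl⟩
  have hS0 : 0 ≤ S := by rw [hS]; positivity
  rw [← hS] at h4
  have h6 : ((q ^ 2 * Y * (m + r) : ℕ) : ℝ) ≤ S * Q ^ 2 * Y := by
    have h7 : (m : ℝ) + r ≤ S := by rw [hS]; linarith
    calc ((q ^ 2 * Y * (m + r) : ℕ) : ℝ) = (m + r) * (q : ℝ) ^ 2 * Y := by push_cast; ring
      _ ≤ S * Q ^ 2 * Y := by gcongr
  have hY4 : (a : ℝ) ^ 3 * (Y : ℝ) ^ 4 ≤ 3456 * (D : ℝ) ^ 3 := by exact_mod_cast hY3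
  have h9 : (R * (S * Q ^ 2 * Y)) ^ 4 ≤ (a : ℝ) ^ 4 := by
    refine le_of_mul_le_mul_left ?_ (pow_pos ha0 3)
    calc (a : ℝ) ^ 3 * (R * (S * Q ^ 2 * Y)) ^ 4
        = (S * Q ^ 2 * R) ^ 4 * ((a : ℝ) ^ 3 * (Y : ℝ) ^ 4) := by ring
      _ ≤ (S * Q ^ 2 * R) ^ 4 * (3456 * (D : ℝ) ^ 3) := by gcongr
      _ = 3456 * (S * Q ^ 2 * R) ^ 4 * (D : ℝ) ^ 3 := by ring
      _ ≤ (a : ℝ) ^ 7 := h4
      _ = (a : ℝ) ^ 3 * (a : ℝ) ^ 4 := by ring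
  have h10 : R * (S * Q ^ 2 * Y) ≤ a :=
    (pow_le_pow_iff_left₀ (by positivity) (by positivity) (by norm_num)).1 h9
  exact (mul_le_mul_of_nonneg_left h6 hR0.le).trans h10

/-- The sizes. -/
theorem xR {a q m : ℕ} {Q R : ℝ} (hm0 : 0 < m) (hR0 : 0 < R) (hqQ : (q : ℝ) ≤ Q)
    (hm1 : Q ^ 2 * R ≤ m) :
    R * ((q ^ 2 * a * (a / m) : ℕ) : ℝ) ≤ (a : ℝ) ^ 2 := by
  have hmR : (0 : ℝ) < m := by exact_mod_cast hm0
  have hq0 : (0 : ℝ) ≤ q := Nat.cast_nonneg q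
  have hq2 : (q : ℝ) ^ 2 ≤ Q ^ 2 := pow_le_pow_left₀ hq0 hqQ 2
  have hdiv : ((a / m : ℕ) : ℝ) ≤ (a : ℝ) / m := Nat.cast_div_le
  have h6 : ((q ^ 2 * a * (a / m) : ℕ) : ℝ) ≤ (q : ℝ) ^ 2 * a * (a / m) := by
    push_cast
    gcongr
  refine le_of_mul_le_mul_right ?_ hmR
  calc R * ((q ^ 2 * a * (a / m) : ℕ) : ℝ) * m ≤ R * ((q : ℝ) ^ 2 * a * (a / m)) * m := by gcongr
    _ = R * (q : ℝ) ^ 2 * (a : ℝ) ^ 2 := by field_simp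
    _ ≤ R * Q ^ 2 * (a : ℝ) ^ 2 := by gcongr
    _ = (Q ^ 2 * R) * (a : ℝ) ^ 2 := by ring
    _ ≤ m * (a : ℝ) ^ 2 := by gcongr
    _ = (a : ℝ) ^ 2 * m := by ring

/-- The border. -/
theorem GR {a q m r Y : ℕ} {Q R : ℝ} (hR0 : 0 < R) (hqQ : (q : ℝ) ≤ Q)
    (hy : R * ((q ^ 2 * Y * (m + r) : ℕ) : ℝ) ≤ a)
    (hx : R * ((q ^ 2 * a * (a / m) : ℕ) : ℝ) ≤ (a : ℝ) ^ 2)
    (h3 : R * (Q ^ 2 + 3 * Q + 8 * (r + 1)) ≤ a) :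
    R * ((q * a * (q * Y * (m + r) + q * (a / m) + q + 3) + 8 * (r + 1) * a : ℕ) : ℝ) ≤
      3 * (a : ℝ) ^ 2 := by
  have hq0 : (0 : ℝ) ≤ q := Nat.cast_nonneg q
  have hz : R * (((q ^ 2 + 3 * q + 8 * (r + 1)) * a : ℕ) : ℝ) ≤ (a : ℝ) ^ 2 := by
    calc R * (((q ^ 2 + 3 * q + 8 * (r + 1)) * a : ℕ) : ℝ)
        = R * ((q : ℝ) ^ 2 + 3 * q + 8 * (r + 1)) * a := by push_cast; ring
      _ ≤ R * (Q ^ 2 + 3 * Q + 8 * (r + 1)) * a := by gcongr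
      _ ≤ (a : ℝ) * a := by gcongr
      _ = (a : ℝ) ^ 2 := by ring
  have hG2 : q * a * (q * Y * (m + r) + q * (a / m) + q + 3) + 8 * (r + 1) * a =
      q ^ 2 * Y * (m + r) * a + q ^ 2 * a * (a / m) + (q ^ 2 + 3 * q + 8 * (r + 1)) * a := by
    ring
  rw [hG2]
  obtain ⟨y, hy'⟩ : ∃ y, y = q ^ 2 * Y * (m + r) := ⟨_, rfl⟩
  obtain ⟨x, hx'⟩ : ∃ x, x = q ^ 2 * a * (a / m) := ⟨_, rfl⟩
  obtain ⟨z, hz'⟩ : ∃ z, z = (q ^ 2 + 3 * q + 8 * (r + 1)) * a := ⟨_, rfl⟩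
  rw [← hy'] at hy
  rw [← hx'] at hx
  rw [← hz'] at hz
  rw [← hy', ← hx', ← hz']
  have h6 : R * (y : ℝ) * a ≤ (a : ℝ) * a := by gcongr
  push_cast
  calc R * ((y : ℝ) * a + x + z) = R * (y : ℝ) * a + R * x + R * z := by ring
    _ ≤ (a : ℝ) * a + (a : ℝ) ^ 2 + (a : ℝ) ^ 2 := by linarith
    _ = 3 * (a : ℝ) ^ 2 := by ring

/-- The driver: `Q` bounds `q`, `R` bounds `3 a ^ 2 / (λ_(l+1) - τ_1)`. -/
theorem driveR (hC : CoreR) {a b k r : ℕ} {lam : Fin (k + 1 + r + 1) → ℕ}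
    (hanti : Antitone lam) (hsum : ∑ i, lam i = a * b) (ha : 0 < a) (hr : 2 ≤ r)
    (hbt : b ≤ D2 lam + a) (h60 : tl lam 0 + 60 * D2 lam + 17 * a ^ 2 ≤ lam 0)
    (hD3 : 3 * a ≤ D2 lam) {Q R : ℝ} (hR : 16 ≤ R)
    (h1 : 5 + 16 * (D2 lam : ℝ) / (a : ℝ) ^ 2 ≤ Q)
    (h2 : ∀ l : Fin r, 3 * (a : ℝ) ^ 2 ≤ R * ((tp (tl lam) l : ℝ) - ta (tl lam) 0))
    (h3 : R * (Q ^ 2 + 3 * Q + 8 * (r + 1)) ≤ a) (h3' : 5 * r * (r + 1) ≤ 2 * a)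
    (h4 : 3456 * ((8 * Q + Q ^ 2 * R + 1 + r) * Q ^ 2 * R) ^ 4 * (D2 lam : ℝ) ^ 3 ≤
      (a : ℝ) ^ 7) :
    plethMult a b (k + 1 + r + 1) lam ≤ plethMult b a (k + 1 + r + 1) lam := by
  obtain ⟨t, ht⟩ : ∃ t, t = ∑ i, ta (tl lam) i := ⟨_, rfl⟩
  have htD : t ≤ D2 lam := by rw [ht]; exact sum_ta_le hr lam
  obtain ⟨D, hD⟩ : ∃ D, D = D2 lam := ⟨_, rfl⟩
  rw [← hD] at hbt h60 hD3 h1 h4 htD
  obtain ⟨q, hq⟩ : ∃ q, q = 5 + 16 * t / a ^ 2 := ⟨_, rfl⟩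
  have ha0 : (0 : ℝ) < a := by exact_mod_cast ha
  have hqQ : (q : ℝ) ≤ Q := by
    refine le_trans ?_ h1
    rw [hq, Nat.cast_add]
    have h5 := @Nat.cast_div_le ℝ _ _ _ (16 * t) (a ^ 2)
    have h6 : ((16 * t : ℕ) : ℝ) / ((a ^ 2 : ℕ) : ℝ) ≤ 16 * (D : ℝ) / (a : ℝ) ^ 2 := by
      push_cast
      have : (t : ℝ) ≤ D := by exact_mod_cast htD
      gcongr
    push_cast at h5 h6 ⊢
    linarith
  have hq5 : 5 ≤ q := by rw [hq]; exact Nat.le_add_right _ _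
  have hqa : q * a ^ 2 ≤ 5 * a ^ 2 + 16 * t := by
    rw [hq, add_mul]
    have := Nat.div_mul_le_self (16 * t) (a ^ 2)
    omega
  have hQ5 : (5 : ℝ) ≤ Q := le_trans (by exact_mod_cast hq5) hqQ
  have hR0 : 0 < R := by linarith
  have hr0 : (0 : ℝ) ≤ r := Nat.cast_nonneg r
  have hQR : 0 ≤ Q ^ 2 * R := by positivity
  obtain ⟨m, hm⟩ : ∃ m, m = 8 * q + ⌈Q ^ 2 * R⌉₊ := ⟨_, rfl⟩
  have hm1 : Q ^ 2 * R ≤ m := by
    rw [hm]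
    push_cast
    have := Nat.le_ceil (Q ^ 2 * R)
    linarith
  have hm2 : (m : ℝ) ≤ 8 * Q + Q ^ 2 * R + 1 := by
    rw [hm]
    push_cast
    have := (Nat.ceil_lt_add_one hQR).le
    linarith
  obtain ⟨Y, hY1, hY2, hY3⟩ := pickY ha hD3
  have hyR := yR (r := r) ha hR0 hqQ hm2 hY3 h4
  have hGR := GR (r := r) hR0 hqQ hyR (xR (a := a) (by omega) hR0 hqQ hm1) h3
  obtain ⟨G, hG⟩ : ∃ G, G = q * a * (q * Y * (m + r) + q * (a / m) + q + 3) +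
    8 * (r + 1) * a := ⟨_, rfl⟩
  rw [← hG] at hGR
  have hGl : ∀ l : Fin r, G + ta (tl lam) 0 ≤ tp (tl lam) l := by
    intro l
    have h7 := le_of_mul_le_mul_left (hGR.trans (h2 l)) hR0
    have : ((G + ta (tl lam) 0 : ℕ) : ℝ) ≤ ((tp (tl lam) l : ℕ) : ℝ) := by
      push_cast
      linarith
    exact_mod_cast this
  have hQ8 : 8 * Q ≤ Q ^ 2 + 3 * Q + 8 * (r + 1) := by
    have : 5 * Q ≤ Q * Q := mul_le_mul_of_nonneg_right hQ5 (by linarith)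
    rw [pow_two]
    linarith
  have h128 : 128 * Q ≤ a := by
    calc 128 * Q = 16 * (8 * Q) := by ring
      _ ≤ R * (Q ^ 2 + 3 * Q + 8 * (r + 1)) := by gcongr
      _ ≤ a := h3
  have hra : 16 * (r + 1) ≤ a := by
    have : ((16 * (r + 1) : ℕ) : ℝ) ≤ (a : ℝ) := by
      push_cast
      have h6 : (r : ℝ) + 1 ≤ Q ^ 2 + 3 * Q + 8 * (r + 1) := by
        have : 0 ≤ Q ^ 2 + 3 * Q := by positivity
        linarith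
      calc 16 * ((r : ℝ) + 1) ≤ R * (Q ^ 2 + 3 * Q + 8 * (r + 1)) := by gcongr
        _ ≤ a := h3
    exact_mod_cast this
  refine hC a b k r q m Y t G lam hsum hanti hr hra ht hq (by omega) ?_ hY1 ?_ hG hGl
    (by rw [← hD]; exact hbt) (by rw [← hD]; exact hY2) ?_
  · have : ((40 * q : ℕ) : ℝ) ≤ (a : ℝ) := by
      push_cast
      linarith
    exact_mod_cast this
  · have h7 : q * Y * (m + r) ≤ q ^ 2 * Y * (m + r) := by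
      have : q ≤ q ^ 2 := Nat.le_self_pow (by norm_num) q
      gcongr
    have h6 : ((16 * (q * Y * (m + r)) : ℕ) : ℝ) ≤ (a : ℝ) := by
      refine le_trans ?_ hyR
      have h8 : ((q * Y * (m + r) : ℕ) : ℝ) ≤ ((q ^ 2 * Y * (m + r) : ℕ) : ℝ) := by
        exact_mod_cast h7
      rw [Nat.cast_mul]
      exact mul_le_mul (by exact_mod_cast hR) h8 (Nat.cast_nonneg _) hR0.le
    exact_mod_cast h6
  · rw [← hD]
    have h6 : 5 * a * r * (r + 1) = a * (5 * r * (r + 1)) := by ring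
    have h7 : a * (5 * r * (r + 1)) ≤ a * (2 * a) := Nat.mul_le_mul_left _ h3'
    have h8 : a * (2 * a) = 2 * a ^ 2 := by ring
    have h14 : 3 * q * a ^ 2 = 3 * (q * a ^ 2) := by ring
    rw [h6, h14]
    omega

/-- Few boxes below row two, with `D2`. -/
theorem few_D2 (hF : FewH) {a b N : ℕ} (lam : Fin N → ℕ) (hN : 2 ≤ N) (ha : 2 ≤ a)
    (h : D2 lam + a ≤ b + 1) : plethMult a b N lam ≤ plethMult b a N lam := by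
  obtain ⟨k, rfl⟩ := Nat.exists_eq_add_of_le' hN
  refine hF a b k lam ha ?_
  have h1 : D2 lam = dn2 lam := by
    rw [D2, dn2, Fin.sum_univ_succ, Fin.sum_univ_succ]
    simp
  rwa [← h1]

/-- The numbers. -/
theorem numS {r : ℕ} {Q0 R0 M0 P : ℝ} (hQ1 : 0 < Q0) (hR2 : 0 < R0)
    (hM0 : M0 = 8 * Q0 + Q0 ^ 2 * R0 + 1 + R0) (hP0 : 1 ≤ P) (hrR : (r : ℝ) ≤ R0 * P) :
    8 * (Q0 * P) + (Q0 * P) ^ 2 * (R0 * P) + 1 + r ≤ M0 * P ^ 3 := by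
  have h2 : P ≤ P ^ 3 := le_self_pow₀ hP0 (by norm_num)
  have h3 : 1 ≤ P ^ 3 := one_le_pow₀ hP0
  have h5 : 8 * Q0 * P ≤ 8 * Q0 * P ^ 3 := by gcongr
  have h6 : R0 * P ≤ R0 * P ^ 3 := by gcongr
  rw [hM0]
  calc 8 * (Q0 * P) + (Q0 * P) ^ 2 * (R0 * P) + 1 + r
      ≤ 8 * (Q0 * P) + (Q0 * P) ^ 2 * (R0 * P) + 1 + R0 * P := by linarith
    _ = 8 * Q0 * P + Q0 ^ 2 * R0 * P ^ 3 + 1 + R0 * P := by ring
    _ ≤ 8 * Q0 * P ^ 3 + Q0 ^ 2 * R0 * P ^ 3 + P ^ 3 + R0 * P ^ 3 := by linarith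
    _ = (8 * Q0 + Q0 ^ 2 * R0 + 1 + R0) * P ^ 3 := by ring

/-- The numbers, `h4`. -/
theorem num4 {a D r : ℕ} {C1 Q0 R0 M0 P : ℝ} (hQ1 : 0 < Q0) (hR2 : 0 < R0)
    (hM0 : M0 = 8 * Q0 + Q0 ^ 2 * R0 + 1 + R0) (hP0 : 1 ≤ P) (hrR : (r : ℝ) ≤ R0 * P)
    (ht3 : (D : ℝ) ≤ C1 * P * (a : ℝ) ^ 2)
    (hQa1 : 3456 * (M0 * Q0 ^ 2 * R0) ^ 4 * C1 ^ 3 * P ^ 27 ≤ a) :
    3456 * ((8 * (Q0 * P) + (Q0 * P) ^ 2 * (R0 * P) + 1 + r) * (Q0 * P) ^ 2 *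
          (R0 * P)) ^ 4 * (D : ℝ) ^ 3 ≤ (a : ℝ) ^ 7 := by
  have hS := numS hQ1 hR2 hM0 hP0 hrR
  have hr0 : (0 : ℝ) ≤ r := Nat.cast_nonneg r
  have hD0 : (0 : ℝ) ≤ D := Nat.cast_nonneg D
  obtain ⟨S, hS'⟩ : ∃ S, S = 8 * (Q0 * P) + (Q0 * P) ^ 2 * (R0 * P) + 1 + r := ⟨_, rfl⟩
  have hS0 : 0 ≤ S := by rw [hS']; positivity
  rw [← hS'] at hS ⊢
  have h1 : S * (Q0 * P) ^ 2 * (R0 * P) ≤ (M0 * P ^ 3) * (Q0 * P) ^ 2 * (R0 * P) := by gcongr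
  have h2 : (S * (Q0 * P) ^ 2 * (R0 * P)) ^ 4 ≤ ((M0 * P ^ 3) * (Q0 * P) ^ 2 * (R0 * P)) ^ 4 :=
    pow_le_pow_left₀ (by positivity) h1 4
  have h3 : (D : ℝ) ^ 3 ≤ (C1 * P * (a : ℝ) ^ 2) ^ 3 := pow_le_pow_left₀ hD0 ht3 3
  calc 3456 * (S * (Q0 * P) ^ 2 * (R0 * P)) ^ 4 * (D : ℝ) ^ 3
      ≤ 3456 * ((M0 * P ^ 3) * (Q0 * P) ^ 2 * (R0 * P)) ^ 4 *
        (C1 * P * (a : ℝ) ^ 2) ^ 3 := by gcongr
    _ = (3456 * (M0 * Q0 ^ 2 * R0) ^ 4 * C1 ^ 3 * P ^ 27) * (a : ℝ) ^ 6 := by ring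
    _ ≤ (a : ℝ) * (a : ℝ) ^ 6 := by gcongr
    _ = (a : ℝ) ^ 7 := by ring

/-- The driver with the constants. -/
theorem lastR (hE : CoreR) {a b k r : ℕ} {lam : Fin (k + 1 + r + 1) → ℕ}
    (hanti : Antitone lam) (hsum : ∑ i, lam i = a * b) (ha : 0 < a) (hr : 2 ≤ r)
    (hbt : b ≤ D2 lam + a) (h60 : tl lam 0 + 60 * D2 lam + 17 * a ^ 2 ≤ lam 0)
    (hD3 : 3 * a ≤ D2 lam) {C1 Q0 R0 M0 P : ℝ} (hC1 : 0 ≤ C1) (hQ0 : Q0 = 5 + C1)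
    (hR1 : 16 ≤ R0) (hM0 : M0 = 8 * Q0 + Q0 ^ 2 * R0 + 1 + R0) (hP0 : 1 ≤ P)
    (hrR : (r : ℝ) ≤ R0 * P) (ht3 : 16 * (D2 lam : ℝ) ≤ C1 * P * (a : ℝ) ^ 2)
    (h2 : ∀ l : Fin r, 3 * (a : ℝ) ^ 2 ≤ R0 * P * ((tp (tl lam) l : ℝ) - ta (tl lam) 0))
    (hQa1 : 3456 * (M0 * Q0 ^ 2 * R0) ^ 4 * C1 ^ 3 * P ^ 27 ≤ a)
    (hQa2 : R0 * (Q0 ^ 2 + 3 * Q0 + 16 * R0) * P ^ 27 ≤ a)
    (hQa3 : 5 * R0 ^ 2 * P ^ 27 ≤ a) :
    plethMult a b (k + 1 + r + 1) lam ≤ plethMult b a (k + 1 + r + 1) lam := by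
  have haR : (1 : ℝ) ≤ a := by exact_mod_cast ha
  have ha3 : (0 : ℝ) < (a : ℝ) ^ 2 := by positivity
  have hQ1 : 0 < Q0 := by rw [hQ0]; positivity
  have hR2 : 0 < R0 := by linarith
  have hr0 : (0 : ℝ) ≤ r := Nat.cast_nonneg r
  have hD0 : (0 : ℝ) ≤ D2 lam := Nat.cast_nonneg _
  have hRP : 16 ≤ R0 * P := by
    calc (16 : ℝ) = 16 * 1 := by ring
      _ ≤ R0 * P := by gcongr
  refine driveR hE hanti hsum ha hr hbt h60 hD3 (Q := Q0 * P) (R := R0 * P)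
    hRP ?_ h2 ?_ ?_ (num4 hQ1 hR2 hM0 hP0 hrR (by linarith) hQa1)
  · have h1 : 16 * (D2 lam : ℝ) / (a : ℝ) ^ 2 ≤ C1 * P := by
      rw [div_le_iff₀ ha3]
      exact ht3
    rw [hQ0]
    linarith
  · have h1 : P ^ 3 ≤ P ^ 27 := pow_le_pow_right₀ hP0 (by norm_num)
    have h2 : P ≤ P ^ 2 := le_self_pow₀ hP0 (by norm_num)
    have h3 : (r : ℝ) + 1 ≤ 2 * R0 * P ^ 2 := by
      have : R0 * P ≤ R0 * P ^ 2 := by gcongr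
      linarith
    calc R0 * P * ((Q0 * P) ^ 2 + 3 * (Q0 * P) + 8 * (r + 1))
        ≤ R0 * P * ((Q0 * P) ^ 2 + 3 * (Q0 * P ^ 2) + 8 * (2 * R0 * P ^ 2)) := by gcongr
      _ = R0 * (Q0 ^ 2 + 3 * Q0 + 16 * R0) * P ^ 3 := by ring
      _ ≤ R0 * (Q0 ^ 2 + 3 * Q0 + 16 * R0) * P ^ 27 := by gcongr
      _ ≤ (a : ℝ) := hQa2
  · have h1 : ((5 * r * (r + 1) : ℕ) : ℝ) ≤ ((2 * a : ℕ) : ℝ) := by
      push_cast
      have h2 : P ^ 2 ≤ P ^ 27 := pow_le_pow_right₀ hP0 (by norm_num)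
      have h3 : (r : ℝ) + 1 ≤ R0 * P + R0 * P := by linarith
      calc 5 * (r : ℝ) * (r + 1) ≤ 5 * (R0 * P) * (R0 * P + R0 * P) := by gcongr
        _ = 2 * (5 * R0 ^ 2 * P ^ 2) := by ring
        _ ≤ 2 * (5 * R0 ^ 2 * P ^ 27) := by gcongr
        _ ≤ 2 * (a : ℝ) := by linarith
    exact_mod_cast h1

/-- Larger factor. -/
theorem toP {C₀ A P x y : ℝ} (hC₀ : 0 < C₀) (hA : A ≤ P) (hA0 : 0 ≤ A) (hx : 0 < x)
    (h : x ≤ C₀ * A * y) : x ≤ C₀ * P * y := by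
  have hpos : 0 < y := by
    by_contra hcon
    push Not at hcon
    have h2 := mul_nonpos_of_nonneg_of_nonpos (mul_nonneg hC₀.le hA0) hcon
    linarith
  refine h.trans ?_
  gcongr

/-- The middle part. -/
theorem midR (hE : CoreR) (hF : FewH) {a b k r : ℕ} {lam : Fin (k + 1 + r + 1) → ℕ}
    (hanti : Antitone lam) (hsum : ∑ i, lam i = a * b) (ha : 0 < a) (hr : 2 ≤ r)
    (h60 : tl lam 0 + 60 * D2 lam + 17 * a ^ 2 ≤ lam 0) (hD3 : 3 * a ≤ D2 lam)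
    {C₀ C1 Q0 R0 M0 P : ℝ} (hC₀ : 0 < C₀) (hC1 : 0 ≤ C1) (hQ0 : Q0 = 5 + C1)
    (hR0 : R0 = 16 * (C₀ + 1)) (hM0 : M0 = 8 * Q0 + Q0 ^ 2 * R0 + 1 + R0) (hP0 : 1 ≤ P)
    (hrP : (r : ℝ) ≤ C₀ * P)
    (hlam : ∀ l : Fin r, (a : ℝ) ^ 2 ≤ C₀ * P * ((tp (tl lam) l : ℝ) - ta (tl lam) 0))
    (hb : (b : ℝ) ≤ C1 * a * P) (ht2 : 60 * (D2 lam : ℝ) ≤ a * b)
    (hQa1 : 3456 * (M0 * Q0 ^ 2 * R0) ^ 4 * C1 ^ 3 * P ^ 27 ≤ a)
    (hQa2 : R0 * (Q0 ^ 2 + 3 * Q0 + 16 * R0) * P ^ 27 ≤ a)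
    (hQa3 : 5 * R0 ^ 2 * P ^ 27 ≤ a) :
    plethMult a b (k + 1 + r + 1) lam ≤ plethMult b a (k + 1 + r + 1) lam := by
  have hR1 : 16 ≤ R0 := by rw [hR0]; linarith
  have ha2 : 2 ≤ a := by
    have hP27 : 1 ≤ P ^ 27 := one_le_pow₀ hP0
    have h5 : (2 : ℝ) ≤ a := by
      calc (2 : ℝ) ≤ 5 * 16 ^ 2 * 1 := by norm_num
        _ ≤ 5 * R0 ^ 2 * P ^ 27 := by gcongr
        _ ≤ a := hQa3
    exact_mod_cast h5
  by_cases hfew : D2 lam + a ≤ b + 1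
  · exact few_D2 hF lam (by omega) ha2 hfew
  have hCR : C₀ ≤ R0 := by rw [hR0]; linarith
  have hP00 : 0 ≤ P := by linarith
  have hrR : (r : ℝ) ≤ R0 * P := hrP.trans (mul_le_mul_of_nonneg_right hCR hP00)
  refine lastR hE hanti hsum ha hr (by omega) h60 hD3 hC1 hQ0 hR1 hM0 hP0 hrR ?_ ?_
    hQa1 hQa2 hQa3
  · have h2 : (a : ℝ) * b ≤ a * (C1 * a * P) :=
      mul_le_mul_of_nonneg_left hb (Nat.cast_nonneg a)
    have h3 : (0 : ℝ) ≤ D2 lam := Nat.cast_nonneg _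
    calc 16 * (D2 lam : ℝ) ≤ a * b := by linarith
      _ ≤ a * (C1 * a * P) := h2
      _ = C1 * P * (a : ℝ) ^ 2 := by ring
  · intro l
    have h1 := hlam l
    obtain ⟨y, hy⟩ : ∃ y : ℝ, y = (tp (tl lam) l : ℝ) - ta (tl lam) 0 := ⟨_, rfl⟩
    rw [← hy] at h1 ⊢
    have hpos : 0 ≤ P * y := by
      by_contra hcon
      push Not at hcon
      have h2 : C₀ * (P * y) < 0 := mul_neg_of_pos_of_neg hC₀ hcon
      have h3 : (0 : ℝ) ≤ (a : ℝ) ^ 2 := by positivity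
      have h4 : C₀ * P * y = C₀ * (P * y) := by ring
      linarith
    calc 3 * (a : ℝ) ^ 2 ≤ 3 * (C₀ * P * y) := by linarith
      _ = (3 * C₀) * (P * y) := by ring
      _ ≤ R0 * (P * y) := by
          refine mul_le_mul_of_nonneg_right ?_ hpos
          rw [hR0]
          linarith
      _ = R0 * P * y := by ring

/-- **(R8)** -/
theorem twoLongR_of (hE : CoreR) (hPL : PLH) (hF : FewH) : TwoLongR := by
  intro C₀ c₀ hC₀ hc₀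
  obtain ⟨C', c', hP⟩ := hPL
  obtain ⟨C1, hC1, hC1'⟩ : ∃ C1 : ℝ, 0 ≤ C1 ∧ C' ≤ C1 := ⟨|C'|, abs_nonneg _, le_abs_self _⟩
  obtain ⟨e, hee1, hee2⟩ : ∃ e : ℕ, c' ≤ e ∧ c₀ ≤ e :=
    ⟨c' + ⌈c₀⌉₊, Nat.le_add_right _ _, (Nat.le_ceil c₀).trans (by
      push_cast
      linarith [(Nat.cast_nonneg c' : (0 : ℝ) ≤ c')])⟩
  obtain ⟨Q0, hQ0⟩ : ∃ Q0, Q0 = 5 + C1 := ⟨_, rfl⟩
  have hQ1 : 0 < Q0 := by rw [hQ0]; positivity
  obtain ⟨R0, hR0⟩ : ∃ R0, R0 = 16 * (C₀ + 1) := ⟨_, rfl⟩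
  have hR2 : 0 < R0 := by rw [hR0]; positivity
  obtain ⟨M0, hM0⟩ : ∃ M0, M0 = 8 * Q0 + Q0 ^ 2 * R0 + 1 + R0 := ⟨_, rfl⟩
  have hM1 : 0 < M0 := by rw [hM0]; positivity
  obtain ⟨K1, hK1⟩ : ∃ K1, K1 = 3456 * (M0 * Q0 ^ 2 * R0) ^ 4 * C1 ^ 3 := ⟨_, rfl⟩
  obtain ⟨K2, hK2⟩ : ∃ K2, K2 = R0 * (Q0 ^ 2 + 3 * Q0 + 16 * R0) := ⟨_, rfl⟩
  obtain ⟨K3, hK3⟩ : ∃ K3, K3 = 5 * R0 ^ 2 := ⟨_, rfl⟩
  have hK10 : 0 ≤ K1 := by rw [hK1]; positivity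
  have hK20 : 0 ≤ K2 := by rw [hK2]; positivity
  have hK30 : 0 ≤ K3 := by rw [hK3]; positivity
  obtain ⟨a₀, ha₀⟩ := ev_log (K1 + K2 + K3) (e * 27)
  obtain ⟨C, hC⟩ : ∃ C, C = C1 * a₀ + 3 := ⟨_, rfl⟩
  have hC3 : 3 ≤ C := by
    rw [hC]
    have : 0 ≤ C1 * a₀ := by positivity
    linarith
  have hCpos : 0 < C := by linarith
  refine ⟨C, ((e + 1 : ℕ) : ℝ), hCpos, by positivity, ?_⟩
  intro a b k r lam hanti hsum ha hr hrP hlam ht h60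
  rw [Real.rpow_natCast] at ht
  have hL := one_le_L a
  have hP1 := hP a b
  have ha1 := ha₀ a
  obtain ⟨L, hLe⟩ : ∃ L, L = 1 + Real.log a := ⟨_, rfl⟩
  rw [← hLe] at hL hlam ht hrP hP1 ha1
  rw [pow_mul] at ha1
  obtain ⟨P, hPe⟩ : ∃ P, P = L ^ e := ⟨_, rfl⟩
  rw [← hPe] at ha1
  have hP0 : 1 ≤ P := by rw [hPe]; exact one_le_pow₀ hL
  have hLP : L ^ c' ≤ P := by rw [hPe]; exact pow_le_pow_right₀ hL hee1
  have hL0 : 0 ≤ L := by linarith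
  have hLc : 0 ≤ L ^ c₀ := Real.rpow_nonneg hL0 _
  have hLP2 : L ^ c₀ ≤ P := by
    rw [hPe, ← Real.rpow_natCast]
    exact Real.rpow_le_rpow_of_exponent_le hL hee2
  have hLP3 : P ≤ L ^ (e + 1) := by
    rw [hPe]
    exact pow_le_pow_right₀ hL (Nat.le_succ _)
  have haR : (1 : ℝ) ≤ a := by exact_mod_cast ha
  have ht1 : C * P * a ≤ D2 lam :=
    le_trans (mul_le_mul_of_nonneg_right (mul_le_mul_of_nonneg_left hLP3 hCpos.le)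
      (by linarith)) ht
  have ht2 : 60 * (D2 lam : ℝ) ≤ a * b := by
    have h : lam 0 ≤ ∑ i, lam i := Finset.single_le_sum (fun _ _ => Nat.zero_le _)
      (Finset.mem_univ 0)
    have : 60 * D2 lam ≤ a * b := by omega
    exact_mod_cast this
  -- the polylog theorem
  by_cases hb : C1 * a * P ≤ b
  · refine hP1 ?_ _ _
    refine le_trans ?_ hb
    have : 0 ≤ L ^ c' := pow_nonneg hL0 _
    calc C' * a * L ^ c' ≤ C1 * a * L ^ c' := by gcongr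
      _ ≤ C1 * a * P := by gcongr
  push Not at hb
  have hCP : 3 ≤ C * P := by
    calc (3 : ℝ) = 3 * 1 := by ring
      _ ≤ C * P := by gcongr
  -- small `a`
  have haa : a₀ < a := by
    by_contra hcon
    push Not at hcon
    have hcon' : (a : ℝ) ≤ a₀ := by exact_mod_cast hcon
    have h2 : 60 * (C * P) ≤ b := by
      have h3 : (a : ℝ) * (60 * (C * P)) ≤ a * b := by
        calc (a : ℝ) * (60 * (C * P)) = 60 * (C * P * a) := by ring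
          _ ≤ 60 * (D2 lam : ℝ) := mul_le_mul_of_nonneg_left ht1 (by norm_num)
          _ ≤ a * b := ht2
      exact le_of_mul_le_mul_left h3 (by linarith)
    have h3 : C1 * a * P ≤ C * P := by
      refine mul_le_mul_of_nonneg_right ?_ (by linarith)
      have h6 : C1 * a ≤ C1 * a₀ := mul_le_mul_of_nonneg_left hcon' hC1
      rw [hC]
      linarith
    linarith
  have hQa : (K1 + K2 + K3) * P ^ 27 ≤ a := ha1 haa.le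
  have hP27 : 0 ≤ P ^ 27 := pow_nonneg (by linarith) _
  have hD3 : 3 * a ≤ D2 lam := by
    have h1 : (3 : ℝ) * a ≤ D2 lam :=
      le_trans (mul_le_mul_of_nonneg_right hCP (by linarith)) ht1
    exact_mod_cast h1
  refine midR hE hF hanti hsum ha hr h60 hD3 hC₀ hC1 hQ0 hR0 hM0 hP0
    (hrP.trans (mul_le_mul_of_nonneg_left hLP2 hC₀.le))
    (fun l => toP hC₀ hLP2 hLc (by positivity) (hlam l)) hb.le ht2 ?_ ?_ ?_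
  · rw [← hK1]
    exact (mul_le_mul_of_nonneg_right (by linarith) hP27).trans hQa
  · rw [← hK2]
    exact (mul_le_mul_of_nonneg_right (by linarith) hP27).trans hQa
  · rw [← hK3]
    exact (mul_le_mul_of_nonneg_right (by linarith) hP27).trans hQa

end Vale.Agent.P181.TR.H235
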